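import Vale.Agent.P141.H28.RidgeW

/-!
# P141, line (A): the middle step of a pair with both slots saturated

`sat_blk`: a saturated partner `P = ps μ X` is replaced, in the middle step, by the saturated
halves.  The loss is the own defect of the partner, a part of the gain, and the distance of the
test matrix to the unmoved one.  `mid_sat`: the middle step of `H28.mid_weight` with the saturated
partner.  `blk_sat`: the same for a static middle step.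
-/

set_option linter.unusedSectionVars false

namespace Vale.Agent.P141.H619.MidSat

open Matrix Vale.Agent.P075 Vale.Agent.P141.H28

noncomputable section

section one

variable {n : Type*} [Fintype n] [DecidableEq n]

/-- `tr((a a' + a' a) b) ≤ η tr(a a') + η⁻¹ tr(a' b)` -/
theorem kap_le {a a' b : Matrix n n ℝ} (ha : a.PosSemidef) (ha1 : (1 - a).PosSemidef)
    (ha' : a'.PosSemidef) (hb : b.PosSemidef) (hb1 : (b - b * b).PosSemidef) {η : ℝ}
    (hη : 0 < η) : (kap a a' * b).trace ≤ η * (a * a').trace + η⁻¹ * (a' * b).trace := by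
  have hbs := psd_isSymm hb
  have h0 : 0 ≤ (a * ((η • (1 : Matrix n n ℝ) - b) * a' * (η • (1 : Matrix n n ℝ) - b))).trace := by
    refine trace_mul_nonneg ha (psd_conj_symm ha' ?_)
    rw [transpose_sub, hbs, transpose_smul, transpose_one]
  have h1 : a * ((η • (1 : Matrix n n ℝ) - b) * a' * (η • (1 : Matrix n n ℝ) - b))
      = (η * η) • (a * a') - η • (a * b * a' + a * a' * b) + a * (b * a' * b) := by
    simp only [Matrix.sub_mul, Matrix.mul_sub, Matrix.smul_mul, Matrix.mul_smul, Matrix.one_mul,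
      Matrix.mul_one, Matrix.mul_assoc]
    module
  have h2 : (a * (b * a' * b)).trace ≤ (1 * (b * a' * b)).trace :=
    trace_mul_le_left (psd_conj_symm ha' hbs) ha1
  have h3 : (b * a' * b).trace = (a' * (b * b)).trace := by
    rw [Matrix.mul_assoc, trace_mul_comm, Matrix.mul_assoc]
  have h4 : (a' * (b * b)).trace ≤ (a' * b).trace := trace_mul_le_right ha' hb1
  have h5 : (a * b * a').trace = (a' * a * b).trace := by
    rw [trace_mul_comm, ← Matrix.mul_assoc]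
  rw [h1, trace_add, trace_sub, trace_smul, trace_smul, trace_add, h5, smul_eq_mul,
    smul_eq_mul] at h0
  rw [Matrix.one_mul, h3] at h2
  rw [kap, Matrix.add_mul, trace_add]
  have h6 : η * ((a * a' * b).trace + (a' * a * b).trace)
      ≤ η * (η * (a * a').trace + η⁻¹ * (a' * b).trace) := by
    rw [mul_add η (η * _), ← mul_assoc η η⁻¹, mul_inv_cancel₀ hη.ne', one_mul]
    linarith
  exact le_of_mul_le_mul_left h6 hη

variable {r : Matrix n n ℝ}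

/-- **The block step**, level one. -/
theorem sat_blk1 {X Y : Matrix n n ℝ} (hX : X.PosSemidef) (hY : Y.PosSemidef) (hr : rᵀ = r)
    (hr2 : r * r = 1) {Z : Matrix n n ℝ} (hZ : Zᵀ = Z) :
    (1 / 2) * ((phi X + r * phi X * r) * Z).trace
      ≤ (1 / 2) * (phi (X + r * X * r) * Z).trace + 11 * (phi X * (r * phi X * r)).trace
        + (1 / 8) * (phi X * (r * phi Y * r)).trace
        + (1 / 4) * ((Z - (phi Y + r * phi Y * r)) * (Z - (phi Y + r * phi Y * r))).trace := by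
  have hX' := refl_psd hX hr
  have ea : phi (r * X * r) = r * phi X * r := phi_refl hX hr hr2
  have hDs := Del_symm hX hX'
  have hDr := Del_refl hX hr hr2
  have sD := trace_Del_sq_le hX hX'
  have wY := phi_psd hY
  have sY := phi_symm hY
  -- the part against the unmoved matrix
  have k1 := kap_le (phi_psd hX) (one_sub_phi_psd hX) (phi_psd hX') wY (phi_sub_sq_psd hY)
    (η := 8) (by norm_num)
  have k2 := trace_mul_nonneg (Gam_psd hX hX') wY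
  have k3 : (Del X (r * X * r) * phi Y).trace ≤ 8 * (phi X * phi (r * X * r)).trace
      + (1 / 8) * (phi (r * X * r) * phi Y).trace := by
    rw [Del_eq, Matrix.sub_mul, trace_sub]
    norm_num at k1
    linarith
  have c3 : (Del X (r * X * r) * (r * phi Y * r)).trace = (Del X (r * X * r) * phi Y).trace := by
    conv_rhs => rw [← hDr]
    rw [show r * Del X (r * X * r) * r * phi Y = r * (Del X (r * X * r) * r * phi Y) by
      noncomm_ring, trace_mul_comm r]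
    congr 1; noncomm_ring
  -- the rest
  set F := Z - (phi Y + r * phi Y * r) with hF
  have hFs : Fᵀ = F := by
    rw [hF, transpose_sub, hZ, transpose_add, sY, transpose_mul, transpose_mul, sY, hr,
      Matrix.mul_assoc]
  have h := trace_sq_nonneg (B := Del X (r * X * r) - F) (by rw [transpose_sub, hDs, hFs])
  have e1 : (Del X (r * X * r) - F) * (Del X (r * X * r) - F)
      = Del X (r * X * r) * Del X (r * X * r) - Del X (r * X * r) * F - F * Del X (r * X * r)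
        + F * F := by noncomm_ring
  rw [e1, trace_add, trace_sub, trace_sub, trace_mul_comm F (Del X (r * X * r))] at h
  have e2 : Z = (phi Y + r * phi Y * r) + F := by rw [hF]; abel
  have e3 : (Del X (r * X * r) * Z).trace
      = 2 * (Del X (r * X * r) * phi Y).trace + (Del X (r * X * r) * F).trace := by
    rw [e2, Matrix.mul_add, Matrix.mul_add, trace_add, trace_add, c3]
    ring
  have e4 : phi X + r * phi X * r = phi (X + r * X * r) + Del X (r * X * r) := by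
    rw [Del, ea]; abel
  rw [e4, Matrix.add_mul, trace_add, e3]
  rw [ea] at k3 sD
  have c6 : (r * phi X * r * phi Y).trace = (phi X * (r * phi Y * r)).trace := by
    rw [show r * phi X * r * phi Y = r * (phi X * r * phi Y) by noncomm_ring, trace_mul_comm]
    congr 1; noncomm_ring
  rw [c6] at k3
  linarith

/-- reflection and scaling -/
theorem smul_refl (μ : ℝ) (X : Matrix n n ℝ) : μ • X + r * (μ • X) * r = μ • (X + r * X * r) := by
  rw [Matrix.mul_smul, Matrix.smul_mul, smul_add]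

/-- **The block step**, levels `μ⁻¹` (partner) and `ν⁻¹` (slot). -/
theorem sat_blk {μ ν : ℝ} (hμ : 0 < μ) (hν : 0 < ν) {X Y : Matrix n n ℝ} (hX : X.PosSemidef)
    (hY : Y.PosSemidef) (hr : rᵀ = r) (hr2 : r * r = 1) {Z : Matrix n n ℝ} (hZ : Zᵀ = Z) :
    (1 / 2) * ((ps μ X + r * ps μ X * r) * Z).trace
      ≤ (1 / 2) * (ps μ (X + r * X * r) * Z).trace
        + 11 * (μ / ν) * (ps μ X * (r * ps μ X * r)).trace
        + (1 / 8) * (ps μ X * (r * ps ν Y * r)).trace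
        + (1 / 4) * (ν / μ) * ((Z - (ps ν Y + r * ps ν Y * r))
          * (Z - (ps ν Y + r * ps ν Y * r))).trace := by
  have h := sat_blk1 (nu_psd hμ hX) (nu_psd hν hY) hr hr2 (Z := ν • Z)
    (by rw [transpose_smul, hZ])
  rw [smul_refl] at h
  have eF : ν • Z - (phi (ν • Y) + r * phi (ν • Y) * r)
      = ν • (Z - (ps ν Y + r * ps ν Y * r)) := by
    rw [ps, Matrix.mul_smul, Matrix.smul_mul, smul_sub, smul_add, smul_smul, smul_smul,
      mul_inv_cancel₀ hν.ne', one_smul, one_smul]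
  have eX : phi (μ • X) = μ • ps μ X := by
    rw [ps, smul_smul, mul_inv_cancel₀ hμ.ne', one_smul]
  have eX2 : phi (μ • (X + r * X * r)) = μ • ps μ (X + r * X * r) := by
    rw [ps, smul_smul, mul_inv_cancel₀ hμ.ne', one_smul]
  have eY : phi (ν • Y) = ν • ps ν Y := by
    rw [ps, smul_smul, mul_inv_cancel₀ hν.ne', one_smul]
  rw [eF, eX, eX2, eY] at h
  have e1 : (μ • ps μ X + r * (μ • ps μ X) * r) = μ • (ps μ X + r * ps μ X * r) := smul_refl ..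
  rw [e1] at h
  simp only [Matrix.mul_smul, Matrix.smul_mul, trace_smul, smul_eq_mul] at h
  have hi : 0 ≤ (μ * ν)⁻¹ := by positivity
  have h2 := mul_le_mul_of_nonneg_left h hi
  have f1 : (μ * ν)⁻¹ * (1 / 2 * (ν * (μ * ((ps μ X + r * ps μ X * r) * Z).trace)))
      = (1 / 2) * ((ps μ X + r * ps μ X * r) * Z).trace := by field_simp
  have f2 : (μ * ν)⁻¹ * (1 / 2 * (ν * (μ * (ps μ (X + r * X * r) * Z).trace))
        + 11 * (μ * (μ * (ps μ X * (r * ps μ X * r)).trace))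
        + 1 / 8 * (ν * (μ * (ps μ X * (r * ps ν Y * r)).trace))
        + 1 / 4 * (ν * (ν * ((Z - (ps ν Y + r * ps ν Y * r))
          * (Z - (ps ν Y + r * ps ν Y * r))).trace)))
      = (1 / 2) * (ps μ (X + r * X * r) * Z).trace
        + 11 * (μ / ν) * (ps μ X * (r * ps μ X * r)).trace
        + (1 / 8) * (ps μ X * (r * ps ν Y * r)).trace
        + (1 / 4) * (ν / μ) * ((Z - (ps ν Y + r * ps ν Y * r))
          * (Z - (ps ν Y + r * ps ν Y * r))).trace := by field_simp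
  linarith

end one

section move

variable {κ n : Type*} [Fintype κ] [Fintype n] [DecidableEq n] [DecidableEq κ]

/-- `c (1 + ν cᵀ Θ c)⁻¹ cᵀ ≤ ν⁻¹ Θ⁻¹` -/
theorem row_psd {ν : ℝ} (hν : 0 < ν) {Θ T : Matrix κ κ ℝ} (hΘ : Θ.PosSemidef) (hT : Θ * T = 1)
    (hTt : Tᵀ = T) (c : Matrix κ n ℝ) :
    (T - ν • (c * res (ν • (cᵀ * Θ * c)) * cᵀ)).PosSemidef := by
  have hs := psd_isSymm hΘ
  have hT2 : T * Θ = 1 := by
    have := congrArg transpose hT
    rwa [transpose_mul, hTt, hs, transpose_one] at this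
  have hX := nu_psd hν (gram_psd hΘ c)
  have hr := res_symm hX
  have h1 := res_mul hX
  set R := res (ν • (cᵀ * Θ * c)) with hR
  set M := T - ν • (c * R * cᵀ) with hM
  have hMt : Mᵀ = M := by
    rw [hM, transpose_sub, transpose_smul, transpose_mul, transpose_mul, transpose_transpose, hTt,
      hr, Matrix.mul_assoc]
  have hV : (Θ + ν • (Θ * c * (Θ * c)ᵀ)).PosSemidef :=
    hΘ.add ((psd_mul_transpose (Θ * c)).smul hν.le)
  have key : M * (Θ + ν • (Θ * c * (Θ * c)ᵀ)) = 1 := by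
    have e1 : R * (cᵀ * (Θ * (c * (cᵀ * Θ)))) = ν⁻¹ • (cᵀ * Θ - R * (cᵀ * Θ)) := by
      have h2 : R * (ν • (cᵀ * Θ * c)) * (cᵀ * Θ) = (1 - R) * (cᵀ * Θ) := by rw [h1]
      rw [Matrix.mul_smul, Matrix.smul_mul, Matrix.sub_mul, Matrix.one_mul] at h2
      have h3 := congrArg (fun W => ν⁻¹ • W) h2
      simp only [smul_smul, inv_mul_cancel₀ hν.ne', one_smul] at h3
      rw [← h3]
      simp only [Matrix.mul_assoc]
    rw [hM, transpose_mul, hs]
    simp only [Matrix.sub_mul, Matrix.mul_add, Matrix.smul_mul, Matrix.mul_smul, Matrix.mul_assoc]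
    rw [hT2, e1, ← Matrix.mul_assoc T Θ, hT2, Matrix.one_mul]
    simp only [Matrix.mul_smul, smul_smul, Matrix.mul_sub, smul_sub]
    rw [mul_inv_cancel₀ hν.ne', mul_one]
    abel
  have h := psd_conj_symm hV hMt
  rwa [key, Matrix.one_mul] at h

/-- **Motion of a saturated weighted Gram matrix**, Hilbert Schmidt norm. -/
theorem ps_move {ν : ℝ} (hν : 0 < ν) {Θ Θ' T' : Matrix κ κ ℝ} (hΘ : Θ.PosSemidef)
    (hΘ' : Θ'.PosSemidef) (hT' : Θ' * T' = 1) (hTt : T'ᵀ = T') (c : Matrix κ n ℝ) :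
    ((ps ν (cᵀ * Θ' * c) - ps ν (cᵀ * Θ * c)) * (ps ν (cᵀ * Θ' * c) - ps ν (cᵀ * Θ * c))).trace
      ≤ ν⁻¹ * (cᵀ * ((Θ' - Θ) * T' * (Θ' - Θ)) * c).trace := by
  have hX := nu_psd hν (gram_psd hΘ c)
  have hX' := nu_psd hν (gram_psd hΘ' c)
  have sX := res_symm hX
  have sX' := res_symm hX'
  have sΘ := psd_isSymm hΘ
  have sΘ' := psd_isSymm hΘ'
  set R := res (ν • (cᵀ * Θ * c)) with hR
  set R' := res (ν • (cᵀ * Θ' * c)) with hR'
  set Δ := Θ' - Θ with hΔ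
  have sΔ : Δᵀ = Δ := by rw [hΔ, transpose_sub, sΘ, sΘ']
  -- resolvent identity
  have e1 : ps ν (cᵀ * Θ' * c) - ps ν (cᵀ * Θ * c) = R * (cᵀ * Δ * c) * R' := by
    have a1 := res_mul hX
    have a2 := mul_res hX'
    rw [← hR] at a1
    rw [← hR'] at a2
    have a3 : R * (ν • (cᵀ * Δ * c)) * R' = R - R' := by
      have b1 : ν • (cᵀ * Δ * c) = ν • (cᵀ * Θ' * c) - ν • (cᵀ * Θ * c) := by
        rw [hΔ, Matrix.mul_sub, Matrix.sub_mul, smul_sub]
      rw [b1, Matrix.mul_sub, Matrix.sub_mul, a1, Matrix.mul_assoc R, a2]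
      noncomm_ring
    have a4 : ps ν (cᵀ * Θ' * c) - ps ν (cᵀ * Θ * c) = ν⁻¹ • (R - R') := by
      rw [ps, ps, phi, phi, ← hR, ← hR', ← smul_sub]
      congr 1
      abel
    rw [a4, ← a3, Matrix.mul_smul, Matrix.smul_mul, smul_smul, inv_mul_cancel₀ hν.ne', one_smul]
  have e2 : (ps ν (cᵀ * Θ' * c) - ps ν (cᵀ * Θ * c))ᵀ
      = ps ν (cᵀ * Θ' * c) - ps ν (cᵀ * Θ * c) := by
    rw [transpose_sub, psd_isSymm (ps_psd hν (gram_psd hΘ' c)),
      psd_isSymm (ps_psd hν (gram_psd hΘ c))]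
  have e3 : ((ps ν (cᵀ * Θ' * c) - ps ν (cᵀ * Θ * c))
      * (ps ν (cᵀ * Θ' * c) - ps ν (cᵀ * Θ * c))).trace
      = (R * (cᵀ * Δ * (c * (R' * R') * cᵀ) * Δ * c) * R).trace := by
    have e4 : (ps ν (cᵀ * Θ' * c) - ps ν (cᵀ * Θ * c))
        * (ps ν (cᵀ * Θ' * c) - ps ν (cᵀ * Θ * c))
        = (ps ν (cᵀ * Θ' * c) - ps ν (cᵀ * Θ * c))
        * (ps ν (cᵀ * Θ' * c) - ps ν (cᵀ * Θ * c))ᵀ := by rw [e2]
    rw [e4, e1]
    simp only [transpose_mul, transpose_transpose, sX, sX', sΔ]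
    congr 1
    simp only [Matrix.mul_assoc]
  -- the inner matrix
  have i1 : ((ν⁻¹ • T') - c * (R' * R') * cᵀ).PosSemidef := by
    have b1 : (c * R' * cᵀ - c * (R' * R') * cᵀ).PosSemidef := by
      have b2 := psd_conj (res_sub_sq_psd hX') c
      rw [← hR', Matrix.mul_sub, Matrix.sub_mul] at b2
      exact b2
    have b3 := (row_psd hν hΘ' hT' hTt c).smul (inv_nonneg.2 hν.le)
    rw [← hR', smul_sub, smul_smul, inv_mul_cancel₀ hν.ne', one_smul] at b3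
    have b4 := b3.add b1
    have b5 : ν⁻¹ • T' - c * R' * cᵀ + (c * R' * cᵀ - c * (R' * R') * cᵀ)
        = ν⁻¹ • T' - c * (R' * R') * cᵀ := by abel
    rwa [b5] at b4
  have i2 : (cᵀ * Δ * (ν⁻¹ • T') * Δ * c - cᵀ * Δ * (c * (R' * R') * cᵀ) * Δ * c).PosSemidef := by
    have b := psd_conj i1 (cᵀ * Δ)
    rw [transpose_mul, transpose_transpose, sΔ] at b
    have e : cᵀ * Δ * (ν⁻¹ • T' - c * (R' * R') * cᵀ) * (Δ * c)
        = cᵀ * Δ * (ν⁻¹ • T') * Δ * c - cᵀ * Δ * (c * (R' * R') * cᵀ) * Δ * c := by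
      rw [Matrix.mul_sub, Matrix.sub_mul]
      simp only [Matrix.mul_assoc]
    rwa [e] at b
  have i3 : (cᵀ * Δ * (c * (R' * R') * cᵀ) * Δ * c).PosSemidef := by
    have b0 : (c * (R' * R') * cᵀ).PosSemidef := by
      have b1 := psd_mul_transpose (c * R')
      rw [transpose_mul, sX'] at b1
      have e : c * R' * (R' * cᵀ) = c * (R' * R') * cᵀ := by simp only [Matrix.mul_assoc]
      rwa [e] at b1
    have b := psd_conj b0 (cᵀ * Δ)
    rw [transpose_mul, transpose_transpose, sΔ] at b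
    have e : cᵀ * Δ * (c * (R' * R') * cᵀ) * (Δ * c)
        = cᵀ * Δ * (c * (R' * R') * cᵀ) * Δ * c := by simp only [Matrix.mul_assoc]
    rwa [e] at b
  -- the outer resolvents
  have o1 : (R * (cᵀ * Δ * (c * (R' * R') * cᵀ) * Δ * c) * R).trace
      ≤ (cᵀ * Δ * (c * (R' * R') * cᵀ) * Δ * c).trace := by
    have e : (R * (cᵀ * Δ * (c * (R' * R') * cᵀ) * Δ * c) * R).trace
        = ((cᵀ * Δ * (c * (R' * R') * cᵀ) * Δ * c) * (R * R)).trace := by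
      rw [trace_mul_comm, ← Matrix.mul_assoc, trace_mul_comm]
    have h3 : (1 - R * R).PosSemidef := by
      have e2 : 1 - R * R = (1 - R) + (R - R * R) := by abel
      rw [e2]
      exact (one_sub_res_psd hX).add (res_sub_sq_psd hX)
    have h4 := trace_mul_nonneg i3 h3
    rw [Matrix.mul_sub, Matrix.mul_one, trace_sub] at h4
    rw [e]
    linarith
  have o2 := i2.trace_nonneg
  rw [trace_sub] at o2
  have o3 : (cᵀ * Δ * (ν⁻¹ • T') * Δ * c).trace = ν⁻¹ * (cᵀ * (Δ * T' * Δ) * c).trace := by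
    rw [← smul_eq_mul, ← trace_smul]
    congr 1
    simp only [Matrix.mul_smul, Matrix.smul_mul, Matrix.mul_assoc]
  rw [e3]
  linarith

end move

section two

variable {κ α ι : Type*} [Fintype κ] [Fintype α] [Fintype ι] [DecidableEq ι] [DecidableEq κ]

theorem ps_bd {ν : ℝ} (hν : 0 < ν) {D₀ D₁ : Matrix ι ι ℝ} (h₀ : D₀.PosSemidef)
    (h₁ : D₁.PosSemidef) : ps ν (bd D₀ D₁) = bd (ps ν D₀) (ps ν D₁) := by
  have e : ∀ (μ : ℝ) (E₀ E₁ : Matrix ι ι ℝ), μ • bd E₀ E₁ = bd (μ • E₀) (μ • E₁) := by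
    intro μ E₀ E₁
    rw [bd, bd, fromBlocks_smul, smul_zero]
  rw [ps, e, phi_bd (nu_psd hν h₀) (nu_psd hν h₁), e]
  rfl

theorem bd_sub (D₀ D₁ E₀ E₁ : Matrix ι ι ℝ) : bd D₀ D₁ - bd E₀ E₁ = bd (D₀ - E₀) (D₁ - E₁) := by
  rw [bd, bd, bd]
  ext i j
  rcases i with i | i <;> rcases j with j | j <;> simp [fromBlocks]

/-- the deficiency of a saturated matrix in the middle step -/
theorem ps_add {n : Type*} [Fintype n] [DecidableEq n] {r : Matrix n n ℝ} {ν : ℝ} (hν : 0 < ν)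
    {Y : Matrix n n ℝ} (hY : Y.PosSemidef) (hr : rᵀ = r) (hr2 : r * r = 1) :
    ((ps ν (Y + r * Y * r) - (ps ν Y + r * ps ν Y * r))
      * (ps ν (Y + r * Y * r) - (ps ν Y + r * ps ν Y * r))).trace
      ≤ 12 * (ps ν Y * (r * ps ν Y * r)).trace := by
  have hνY := nu_psd hν hY
  have h := trace_Del_sq_le hνY (refl_psd hνY hr)
  have ea : phi (r * (ν • Y) * r) = r * phi (ν • Y) * r := phi_refl hνY hr hr2
  have e1 : ps ν (Y + r * Y * r) - (ps ν Y + r * ps ν Y * r)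
      = (-ν⁻¹) • Del (ν • Y) (r * (ν • Y) * r) := by
    rw [Del, ea, smul_refl, ps, ps, Matrix.mul_smul, Matrix.smul_mul]
    module
  rw [e1, Matrix.smul_mul, Matrix.mul_smul, smul_smul, trace_smul, smul_eq_mul]
  rw [ea] at h
  have e2 : (ps ν Y * (r * ps ν Y * r)).trace
      = (ν⁻¹ * ν⁻¹) * (phi (ν • Y) * (r * phi (ν • Y) * r)).trace := by
    rw [ps]
    simp only [Matrix.mul_smul, Matrix.smul_mul, smul_smul, trace_smul, smul_eq_mul]
  rw [e2]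
  have h2 := mul_le_mul_of_nonneg_left h (by positivity : 0 ≤ ν⁻¹ * ν⁻¹)
  calc _ = ν⁻¹ * ν⁻¹ * (Del (ν • Y) (r * (ν • Y) * r) * Del (ν • Y) (r * (ν • Y) * r)).trace := by
        ring
    _ ≤ _ := h2
    _ = _ := by ring

/-- **The distance of the moved halves to the unmoved matrix.** -/
theorem dist_le {ν : ℝ} (hν : 0 < ν) {Θ Θ₀ T₀ Θ₁ T₁ : Matrix κ κ ℝ} (hΘ : Θ.PosSemidef)
    (hΘ₀ : Θ₀.PosSemidef) (hΘ₁ : Θ₁.PosSemidef) (hT₀ : Θ₀ * T₀ = 1) (hT₁ : Θ₁ * T₁ = 1)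
    (sT₀ : T₀ᵀ = T₀) (sT₁ : T₁ᵀ = T₁) (c₀ c₁ : Matrix κ ι ℝ) {X : Matrix (ι ⊕ ι) (ι ⊕ ι) ℝ}
    (hX : X = (1 / 2 : ℝ) • ((fromCols c₀ c₁)ᵀ * Θ * fromCols c₀ c₁)) :
    ((bd (ps ν (c₀ᵀ * Θ₀ * c₀)) (ps ν (c₁ᵀ * Θ₁ * c₁))
        - (ps ν X + rad ι * ps ν X * rad ι))
      * (bd (ps ν (c₀ᵀ * Θ₀ * c₀)) (ps ν (c₁ᵀ * Θ₁ * c₁))
        - (ps ν X + rad ι * ps ν X * rad ι))).trace
      ≤ 24 * (ps ν X * (rad ι * ps ν X * rad ι)).trace
        + 2 * ν⁻¹ * ((c₀ᵀ * ((Θ₀ - Θ) * T₀ * (Θ₀ - Θ)) * c₀).trace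
          + (c₁ᵀ * ((Θ₁ - Θ) * T₁ * (Θ₁ - Θ)) * c₁).trace) := by
  have gX : X.PosSemidef := by
    rw [hX]; exact (gram_psd hΘ _).smul (by norm_num)
  have bX : X + rad ι * X * rad ι = bd (c₀ᵀ * Θ * c₀) (c₁ᵀ * Θ * c₁) := by
    rw [hX]; exact half_bd Θ c₀ c₁
  have sX : (ps ν X + rad ι * ps ν X * rad ι)ᵀ = ps ν X + rad ι * ps ν X * rad ι := by
    have := psd_isSymm (ps_psd hν gX)
    rw [transpose_add, transpose_mul, transpose_mul, this, rad_symm, Matrix.mul_assoc]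
  have h1 := ps_add hν gX (rad_symm (m := ι)) rad_sq
  rw [bX, ps_bd hν (gram_psd hΘ c₀) (gram_psd hΘ c₁)] at h1
  have m0 := ps_move hν hΘ hΘ₀ hT₀ sT₀ c₀
  have m1 := ps_move hν hΘ hΘ₁ hT₁ sT₁ c₁
  set P := bd (ps ν (c₀ᵀ * Θ₀ * c₀)) (ps ν (c₁ᵀ * Θ₁ * c₁)) with hP
  set Q := bd (ps ν (c₀ᵀ * Θ * c₀)) (ps ν (c₁ᵀ * Θ * c₁)) with hQ
  set W := ps ν X + rad ι * ps ν X * rad ι with hW
  have eb : ∀ E₀ E₁ : Matrix ι ι ℝ, E₀ᵀ = E₀ → E₁ᵀ = E₁ → (bd E₀ E₁)ᵀ = bd E₀ E₁ := by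
    intro E₀ E₁ a b
    rw [bd, fromBlocks_transpose, a, b, transpose_zero]
  have sP : Pᵀ = P := eb _ _ (psd_isSymm (ps_psd hν (gram_psd hΘ₀ c₀)))
    (psd_isSymm (ps_psd hν (gram_psd hΘ₁ c₁)))
  have sQ : Qᵀ = Q := eb _ _ (psd_isSymm (ps_psd hν (gram_psd hΘ c₀)))
    (psd_isSymm (ps_psd hν (gram_psd hΘ c₁)))
  have h2 : ((P - Q) * (P - Q)).trace
      ≤ ν⁻¹ * ((c₀ᵀ * ((Θ₀ - Θ) * T₀ * (Θ₀ - Θ)) * c₀).trace
          + (c₁ᵀ * ((Θ₁ - Θ) * T₁ * (Θ₁ - Θ)) * c₁).trace) := by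
    rw [hP, hQ, bd_sub, bd_mul, trace_bd]
    linarith
  have h3 := trace_sq_nonneg (B := (P - Q) - (Q - W))
    (by rw [transpose_sub, transpose_sub, transpose_sub, sP, sQ, sX])
  have e3 : ((P - Q) - (Q - W)) * ((P - Q) - (Q - W)) + (P - W) * (P - W)
      = (P - Q) * (P - Q) + (P - Q) * (P - Q) + ((Q - W) * (Q - W) + (Q - W) * (Q - W)) := by
    noncomm_ring
  have e4 := congrArg trace e3
  simp only [trace_add] at e4
  linarith

/-- splitting of a PSD matrix in columns -/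
theorem exists_cols {P : Matrix (ι ⊕ ι) (ι ⊕ ι) ℝ} (hP : P.PosSemidef) :
    ∃ B₀ B₁ : Matrix (ι ⊕ ι) ι ℝ, P = (1 / 2 : ℝ) • ((fromCols B₀ B₁)ᵀ * fromCols B₀ B₁) := by
  obtain ⟨B, hB, rfl⟩ := exists_sq hP
  refine ⟨Real.sqrt 2 • B.toCols₁, Real.sqrt 2 • B.toCols₂, ?_⟩
  have e : fromCols (Real.sqrt 2 • B.toCols₁) (Real.sqrt 2 • B.toCols₂) = Real.sqrt 2 • B := by
    ext i j
    rcases j with j | j <;> simp [fromCols, toCols₁, toCols₂]
  rw [e, transpose_smul, psd_isSymm hB, Matrix.smul_mul, Matrix.mul_smul, smul_smul, smul_smul]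
  have h2 : (1 / 2 : ℝ) * Real.sqrt 2 * Real.sqrt 2 = 1 := by
    rw [mul_assoc, Real.mul_self_sqrt (by norm_num)]
    norm_num
  rw [h2, one_smul]

theorem blk_psd {D₀ D₁ : Matrix ι ι ℝ} (h : (bd D₀ D₁).PosSemidef) :
    D₀.PosSemidef ∧ D₁.PosSemidef := by
  have e₀ : D₀ = (fromCols (1 : Matrix ι ι ℝ) (0 : Matrix ι ι ℝ)) * bd D₀ D₁
      * (fromCols (1 : Matrix ι ι ℝ) (0 : Matrix ι ι ℝ))ᵀ := by
    rw [bd, transpose_fromCols, fromCols_mul_fromBlocks, fromCols_mul_fromRows]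
    simp
  have e₁ : D₁ = (fromCols (0 : Matrix ι ι ℝ) (1 : Matrix ι ι ℝ)) * bd D₀ D₁
      * (fromCols (0 : Matrix ι ι ℝ) (1 : Matrix ι ι ℝ))ᵀ := by
    rw [bd, transpose_fromCols, fromCols_mul_fromBlocks, fromCols_mul_fromRows]
    simp
  constructor
  · rw [e₀]; exact psd_conj h _
  · rw [e₁]; exact psd_conj h _

/-- **Middle step of a pair with a moving weight, both slots saturated.** -/
theorem mid_sat {ν μ : ℝ} (hν : 0 < ν) (hμ : 0 < μ)
    {Θ T Θ₀ T₀ Θ₁ T₁ N M Nm : Matrix κ κ ℝ} (hΘ : Θ.PosSemidef)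
    (hΘ₀ : Θ₀.PosSemidef) (hΘ₁ : Θ₁.PosSemidef) (hT : Θ * T = 1) (hT₀ : Θ₀ * T₀ = 1)
    (hT₁ : Θ₁ * T₁ = 1) (hTp : T.PosSemidef) (hTp₀ : T₀.PosSemidef) (hTp₁ : T₁.PosSemidef)
    (e₀ : Θ₀ = Θ + N + M) (e₁ : Θ₁ = Θ + N - M) (hN : Nᵀ = N) (hM : Mᵀ = M)
    (hNm : Nm.PosSemidef) (hNN : (N + Nm).PosSemidef)
    (A₀ A₁ : Matrix α ι ℝ) (c₀ c₁ : Matrix κ ι ℝ)
    {X XA : Matrix (ι ⊕ ι) (ι ⊕ ι) ℝ}
    (hX : X = (1 / 2 : ℝ) • ((fromCols c₀ c₁)ᵀ * Θ * fromCols c₀ c₁))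
    (hXA : XA = (1 / 2 : ℝ) • ((fromCols A₀ A₁)ᵀ * fromCols A₀ A₁)) :
    (ps μ XA * ps ν X).trace + (1 / 8) * (ps μ XA * (rad ι * ps ν X * rad ι)).trace
      ≤ (1 / 2) * ((ps μ (A₀ᵀ * A₀) * ps ν (c₀ᵀ * Θ₀ * c₀)).trace
          + (ps μ (A₁ᵀ * A₁) * ps ν (c₁ᵀ * Θ₁ * c₁)).trace)
        + 11 * (μ / ν) * (ps μ XA * (rad ι * ps μ XA * rad ι)).trace
        + μ⁻¹ * (7 * ν * (ps ν X * (rad ι * ps ν X * rad ι)).trace
          + 2 * ((c₀ᵀ * (M * T * M) * c₀).trace + (c₁ᵀ * (M * T * M) * c₁).trace)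
          + (3 / 2) * ((c₀ᵀ * ((N + M) * T₀ * (N + M)) * c₀).trace
            + (c₁ᵀ * ((N - M) * T₁ * (N - M)) * c₁).trace)
          + ((c₀ᵀ * Nm * c₀).trace + (c₁ᵀ * Nm * c₁).trace)) := by
  classical
  have gX : X.PosSemidef := by
    rw [hX]; exact (gram_psd hΘ _).smul (by norm_num)
  have gXA : XA.PosSemidef := by
    rw [hXA]; exact (psd_transpose_mul _).smul (by norm_num)
  have bA : XA + rad ι * XA * rad ι = bd (A₀ᵀ * A₀) (A₁ᵀ * A₁) := by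
    rw [hXA]; exact half_bd' A₀ A₁
  have pP := ps_psd hμ gXA
  obtain ⟨B₀, B₁, hB⟩ := exists_cols pP
  have bB : ps μ XA + rad ι * ps μ XA * rad ι = bd (B₀ᵀ * B₀) (B₁ᵀ * B₁) := by
    have := half_bd' B₀ B₁
    rwa [← hB] at this
  -- caps of the square root
  have cP : (μ⁻¹ • (1 : Matrix (ι ⊕ ι) (ι ⊕ ι) ℝ) - ps μ XA).PosSemidef := by
    have h := (one_sub_phi_psd (nu_psd hμ gXA)).smul (inv_nonneg.2 hμ.le)
    rwa [smul_sub] at h
  have cB : (bd ((2 * μ⁻¹) • (1 : Matrix ι ι ℝ) - B₀ᵀ * B₀)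
      ((2 * μ⁻¹) • (1 : Matrix ι ι ℝ) - B₁ᵀ * B₁)).PosSemidef := by
    have h := cP.add (refl_psd cP (rad_symm (m := ι)))
    have e : μ⁻¹ • (1 : Matrix (ι ⊕ ι) (ι ⊕ ι) ℝ) - ps μ XA
        + rad ι * (μ⁻¹ • (1 : Matrix (ι ⊕ ι) (ι ⊕ ι) ℝ) - ps μ XA) * rad ι
        = bd ((2 * μ⁻¹) • (1 : Matrix ι ι ℝ) - B₀ᵀ * B₀)
          ((2 * μ⁻¹) • (1 : Matrix ι ι ℝ) - B₁ᵀ * B₁) := by
      have e1 : rad ι * (μ⁻¹ • (1 : Matrix (ι ⊕ ι) (ι ⊕ ι) ℝ)) * rad ι
          = μ⁻¹ • (1 : Matrix (ι ⊕ ι) (ι ⊕ ι) ℝ) := by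
        rw [Matrix.mul_smul, Matrix.smul_mul, Matrix.mul_one, rad_sq]
      have e2 : μ⁻¹ • (1 : Matrix (ι ⊕ ι) (ι ⊕ ι) ℝ) + μ⁻¹ • (1 : Matrix (ι ⊕ ι) (ι ⊕ ι) ℝ)
          = bd ((2 * μ⁻¹) • (1 : Matrix ι ι ℝ)) ((2 * μ⁻¹) • (1 : Matrix ι ι ℝ)) := by
        rw [← add_smul, ← two_mul, bd, ← fromBlocks_one, fromBlocks_smul, smul_zero]
      rw [← bd_sub, ← e2, ← bB, Matrix.mul_sub, Matrix.sub_mul, e1]
      abel
    rwa [e] at h
  obtain ⟨cB₀, cB₁⟩ := blk_psd cB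
  have h := mid_weight hν (by positivity : (0 : ℝ) ≤ 2 * μ⁻¹) hΘ hΘ₀ hΘ₁ hT hT₀ hT₁ hTp hTp₀ hTp₁
    e₀ e₁ hN hM hNm hNN cB₀ cB₁ c₀ c₁ hX hB
  -- the saturated halves
  set Z := bd (ps ν (c₀ᵀ * Θ₀ * c₀)) (ps ν (c₁ᵀ * Θ₁ * c₁)) with hZ
  have sZ : Zᵀ = Z := by
    rw [hZ, bd, fromBlocks_transpose, psd_isSymm (ps_psd hν (gram_psd hΘ₀ c₀)),
      psd_isSymm (ps_psd hν (gram_psd hΘ₁ c₁)), transpose_zero]
  have k := sat_blk hμ hν gXA gX (rad_symm (m := ι)) rad_sq sZ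
  have kd := dist_le hν hΘ hΘ₀ hΘ₁ hT₀ hT₁ (psd_isSymm hTp₀) (psd_isSymm hTp₁) c₀ c₁ hX
  rw [bB, bA, ps_bd hμ (psd_transpose_mul A₀) (psd_transpose_mul A₁)] at k
  rw [hZ, tr_bd', tr_bd', ← hZ] at k
  have d₀ : Θ₀ - Θ = N + M := by rw [e₀]; abel
  have d₁ : Θ₁ - Θ = N - M := by rw [e₁]; abel
  rw [← hZ, d₀, d₁] at kd
  have k2 := mul_le_mul_of_nonneg_left kd (by positivity : 0 ≤ (1 / 4) * (ν / μ))
  have f1 : (1 / 4) * (ν / μ) * (24 * (ps ν X * (rad ι * ps ν X * rad ι)).trace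
        + 2 * ν⁻¹ * ((c₀ᵀ * ((N + M) * T₀ * (N + M)) * c₀).trace
          + (c₁ᵀ * ((N - M) * T₁ * (N - M)) * c₁).trace))
      = μ⁻¹ * (6 * ν * (ps ν X * (rad ι * ps ν X * rad ι)).trace
        + (1 / 2) * ((c₀ᵀ * ((N + M) * T₀ * (N + M)) * c₀).trace
          + (c₁ᵀ * ((N - M) * T₁ * (N - M)) * c₁).trace)) := by
    field_simp
    ring
  rw [f1] at k2
  linarith

/-- **Static middle step of a saturated pair**, the partner saturated too; `X`, `Y` any. -/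
theorem blk_sat {ν μ : ℝ} (hν : 0 < ν) (hμ : 0 < μ) {n : Type*} [Fintype n] [DecidableEq n]
    {r X Y : Matrix n n ℝ} (hX : X.PosSemidef) (hY : Y.PosSemidef) (hr : rᵀ = r)
    (hr2 : r * r = 1) :
    (ps μ X * ps ν (Y + r * Y * r)).trace
      ≤ (1 / 2) * (ps μ (X + r * X * r) * ps ν (Y + r * Y * r)).trace
        + 11 * (μ / ν) * (ps μ X * (r * ps μ X * r)).trace
        + (1 / 8) * (ps μ X * (r * ps ν Y * r)).trace
        + 3 * (ν / μ) * (ps ν Y * (r * ps ν Y * r)).trace := by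
  have hYr : (Y + r * Y * r).PosSemidef := hY.add (refl_psd hY hr)
  have hZ : r * ps ν (Y + r * Y * r) * r = ps ν (Y + r * Y * r) := by
    have e : r * phi (ν • (Y + r * Y * r)) * r = phi (ν • (Y + r * Y * r)) := by
      rw [← phi_refl (nu_psd hν hYr) hr hr2]
      congr 1
      rw [Matrix.mul_smul, Matrix.smul_mul]
      congr 1
      rw [Matrix.mul_add, Matrix.add_mul, refl_refl hr2, add_comm]
    rw [ps, Matrix.mul_smul, Matrix.smul_mul, e]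
  have k := sat_blk hμ hν hX hY hr hr2 (psd_isSymm (ps_psd hν hYr))
  have k1 := ps_add hν hY hr hr2
  have e1 : (ps μ X * ps ν (Y + r * Y * r)).trace
      = (1 / 2) * ((ps μ X + r * ps μ X * r) * ps ν (Y + r * Y * r)).trace := by
    have e : (r * ps μ X * r * ps ν (Y + r * Y * r)).trace
        = (ps μ X * ps ν (Y + r * Y * r)).trace := by
      conv_rhs => rw [← hZ]
      rw [Matrix.mul_assoc, Matrix.mul_assoc, trace_mul_comm]
      simp only [Matrix.mul_assoc]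
    rw [Matrix.add_mul, trace_add, e]
    ring
  have k2 := mul_le_mul_of_nonneg_left k1 (by positivity : 0 ≤ (1 / 4) * (ν / μ))
  rw [e1]
  linarith

end two

end

end Vale.Agent.P141.H619.MidSat
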