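import Vale.Agent.P141.H213.RowX
import Vale.Agent.P141.H677.FDb
import Vale.Agent.P141.H747.GridF
import Vale.Agent.P141.H609.RPW
import Vale.Agent.P141.H922.MovR

/-!
# P141, line (A): the rows of the third slot on the shifted grids

* `row_sh` : row energies of a family on the standard grid give those of the translated, cut family
  on the cells of the shifted grid;
* `rowC` : the third slot of `FDs`; `rowC_rt` : the same as row traces of `H609.RPW.ec`.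
-/

namespace Vale.Agent.P141.H619

open Finset Matrix
open Vale.Agent.P141.PL (Pt iv ix mem_iv ix_ix cx)
open Vale.Agent.P141.PL.H315 (Tri)
open Vale.Agent.P141.H210 (two sum_two sum_cell_le ix_root)
open Vale.Agent.P141.H747 (sft shC)
open Vale.Agent.P141.H958 (lbs)
open Vale.Agent.P141.H338 (cu sum_cu_cu)
open Vale.Agent.P141.H677.Sk (FamA FamV FDs)
open Vale.Agent.P141.H677 (kF)

noncomputable section

open scoped Classical

variable {ι : Type} [Fintype ι] [DecidableEq ι]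

omit [DecidableEq ι] in
theorem dp_nn (w : ι → ℝ) : 0 ≤ w ⬝ᵥ w := sum_nonneg fun i _ => mul_self_nonneg (w i)

omit [DecidableEq ι] in
/-- **Rows of the translated, cut family.** -/
theorem row_sh {K : ℕ} {R S : ℤ} {f : ℤ → ℤ → ℤ → ι → ℝ} {k : ℕ} (hk : k < K) {B : ℝ}
    (hB : 0 ≤ B) {q : ℤ}
    (h : ∀ m ∈ iv (K - k) R, ∀ p ∈ iv K S,
      ∑ x0 ∈ iv k q, ∑ z ∈ iv k m, f x0 z p ⬝ᵥ f x0 z p ≤ B) (a b n x : ℤ) :
    ∑ x0 ∈ iv k q, ∑ z ∈ iv (k + 1) n,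
      sft K R S a b (f x0) z x ⬝ᵥ sft K R S a b (f x0) z x ≤ 4 * B := by
  set G : ℤ → ℤ → ℝ := fun x0 z => if ix K z = R ∧ ix K (x + b) = S then
    f x0 z (x + b) ⬝ᵥ f x0 z (x + b) else 0 with hG
  have G0 : ∀ x0 z, 0 ≤ G x0 z := by
    intro x0 z
    rw [hG]
    simp only
    split_ifs
    · exact dp_nn _
    · exact le_rfl
  have e1 : ∀ x0 z, sft K R S a b (f x0) z x ⬝ᵥ sft K R S a b (f x0) z x = G x0 (z + a) := by
    intro x0 z
    rw [hG]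
    unfold H747.sft
    simp only
    split_ifs
    · rfl
    · exact zero_dotProduct _
  have hb : ∀ m : ℤ, ∑ x0 ∈ iv k q, ∑ z ∈ iv k m, G x0 z ≤ B := by
    intro m
    by_cases hh : ix (K - k) m = R ∧ ix K (x + b) = S
    · refine le_trans (le_of_eq ?_) (h m (mem_iv.2 hh.1) (x + b) (mem_iv.2 hh.2))
      refine sum_congr rfl fun x0 _ => sum_congr rfl fun z hz => ?_
      rw [hG]
      simp only
      rw [ix_root hk.le hz, if_pos hh]
    · refine le_trans (le_of_eq ?_) hB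
      refine sum_eq_zero fun x0 _ => sum_eq_zero fun z hz => ?_
      rw [hG]
      simp only
      rw [ix_root hk.le hz, if_neg hh]
  have h2 : ∀ m : ℤ, ∑ x0 ∈ iv k q, ∑ z ∈ iv k m, G x0 (z + a) ≤ 2 * B := by
    intro m
    have h3 : ∀ x0 ∈ iv k q, ∑ z ∈ iv k m, G x0 (z + a) ≤
        ∑ z ∈ iv k (m + ix k a), G x0 z + ∑ z ∈ iv k (m + ix k a + 1), G x0 z := by
      intro x0 _
      refine (sum_cell_le k m a (g := G x0) (G0 x0)).trans (le_of_eq ?_)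
      exact sum_two _ _
    refine (sum_le_sum h3).trans ?_
    rw [sum_add_distrib]
    have g1 := hb (m + ix k a)
    have g2 := hb (m + ix k a + 1)
    linarith
  have h4 : ∀ x0 ∈ iv k q, ∑ z ∈ iv (k + 1) n,
      sft K R S a b (f x0) z x ⬝ᵥ sft K R S a b (f x0) z x =
      ∑ z ∈ iv k (2 * n), G x0 (z + a) + ∑ z ∈ iv k (2 * n + 1), G x0 (z + a) := by
    intro x0 _
    rw [← H922.iv_succ_sum k n fun z => G x0 (z + a)]
    exact sum_congr rfl fun z _ => e1 x0 z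
  rw [sum_congr rfl h4, sum_add_distrib]
  have g1 := h2 (2 * n)
  have g2 := h2 (2 * n + 1)
  linarith

/-- rows of the third slot on the standard grid, killed times -/
theorem rowC_std {q : H401.Num} {n : ℕ} {ez : ℝ} {F1 F2 F3 : ℕ → Pt → ℝ} {K : ℕ} {x : Pt}
    {s r : ℝ} {U : Tri} {g : ℤ → ℤ → ℝ} {u v : ℤ → ℤ → ι → ℝ} {A : FamA} {b C : FamV ι}
    {Q1 Q2 Q3 : ℕ → Pt → Prop} {v' : ℤ → ℤ → ι → ℝ}
    (h : FDs q n ez F1 F2 F3 K x s r U g u v A b C Q1 Q2 Q3 v') (hK : K ≤ n) (hez : 0 ≤ ez)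
    (hl : 0 ≤ H677.Sk.lam1 q s r) (t : ℤ) :
    ∀ k < K, ∀ a ∈ iv (K - k) t, ∀ m ∈ iv (K - k) (cx K x).2.2, ∀ p ∈ iv K (cx K x).1,
      ∑ x0 ∈ iv k a, ∑ z ∈ iv k m, C x0 (k + 1) z p ⬝ᵥ C x0 (k + 1) z p ≤
        4 ^ k * (2 * ez * H677.Sk.lam1 q s r) := by
  intro k hk a ha m hm p hp
  have h1 := H213.rowX_base (T0 := t) h.B2 hez hl hK (u := v') (Λ := q.Lm) (a := U.2.1)
    (fun k hk x1 hx1 x3 hx3 hn => h.fib k hk x1 hx1 x3 hx3 hn) k hk a ha m hm p hp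
  refine le_trans (le_of_eq ?_) h1
  refine sum_congr rfl fun x0 _ => sum_congr rfl fun z _ => ?_
  rw [h.C_eq]

/-- **Rows of the third slot on the shifted grids**, divided by `√ez`. -/
theorem rowC {q : H401.Num} {n : ℕ} {ez : ℝ} {F1 F2 F3 : ℕ → Pt → ℝ} {K : ℕ} {x : Pt}
    {s r : ℝ} {U : Tri} {g : ℤ → ℤ → ℝ} {u v : ℤ → ℤ → ι → ℝ} {A : FamA} {b C : FamV ι}
    {Q1 Q2 Q3 : ℕ → Pt → Prop} {v' : ℤ → ℤ → ι → ℝ}
    (h : FDs q n ez F1 F2 F3 K x s r U g u v A b C Q1 Q2 Q3 v') (hK : K ≤ n) (hez : 0 < ez)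
    (hl : 0 ≤ H677.Sk.lam1 q s r) (t : ℤ) (sh : Pt) :
    ∀ k < K, ∀ a ∈ iv (K - k) t, ∀ m p : ℤ,
      ∑ x0 ∈ iv k a, ∑ z ∈ iv (k + 1) m,
        shC K (cx K x) sh (fun k z x => (√ez)⁻¹ • C x0 k z x) (k + 1) z p ⬝ᵥ
          shC K (cx K x) sh (fun k z x => (√ez)⁻¹ • C x0 k z x) (k + 1) z p ≤
        4 ^ k * (8 * H677.Sk.lam1 q s r) := by
  intro k hk a ha m p
  have h1 := row_sh (K := K) (R := (cx K x).2.2) (S := (cx K x).1)
    (f := fun x0 z x' => (√ez)⁻¹ • C x0 (k + 1) z x') hk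
    (B := 4 ^ k * (2 * H677.Sk.lam1 q s r)) (q := a) (by positivity) (fun m' hm' p' hp' => by
      have h2 := rowC_std h hK hez.le hl t k hk a ha m' hm' p' hp'
      have e1 : ∀ x0 z, ((√ez)⁻¹ • C x0 (k + 1) z p') ⬝ᵥ ((√ez)⁻¹ • C x0 (k + 1) z p') =
          ez⁻¹ * (C x0 (k + 1) z p' ⬝ᵥ C x0 (k + 1) z p') := by
        intro x0 z
        rw [smul_dotProduct, dotProduct_smul, smul_eq_mul, smul_eq_mul, ← mul_assoc]
        congr 1
        rw [← mul_inv, Real.mul_self_sqrt hez.le]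
      simp only [e1, ← mul_sum]
      have h3 := mul_le_mul_of_nonneg_left h2 (inv_nonneg.2 hez.le)
      refine h3.trans (le_of_eq ?_)
      field_simp) sh.2.2 sh.1 m p
  refine h1.trans (le_of_eq ?_)
  ring

variable {L : ℕ} {e : ι ⊕ ι → ℤ}

/-- the row traces of the encoded slot -/
theorem rt_ec_nsq (he : Function.Injective e) (hm : ∀ i, e i ∈ lbs L) (C : ℕ → ℤ → ℤ → ι → ℝ)
    (k a : ℕ) (n x : ℤ) : H433.rt L (H609.RPW.ec L e C (L + k)) a n x =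
      ((2 : ℝ) ^ a)⁻¹ * ∑ z ∈ iv a n, C k z x ⬝ᵥ C k z x := by
  rw [H609.RPW.rt_ec]
  congr 1
  refine sum_congr rfl fun z _ => ?_
  simp only [sq]
  rw [sum_cu_cu he hm]
  unfold dotProduct
  rw [Fintype.sum_sum_type]
  simp

/-- **Rows of the third slot on the shifted grids as row traces.** -/
theorem rowC_rt (he : Function.Injective e) (hm : ∀ i, e i ∈ lbs L) {q : H401.Num} {n : ℕ}
    {ez : ℝ} {F1 F2 F3 : ℕ → Pt → ℝ} {K : ℕ} {x : Pt}
    {s r : ℝ} {U : Tri} {g : ℤ → ℤ → ℝ} {u v : ℤ → ℤ → ι → ℝ} {A : FamA} {b C : FamV ι}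
    {Q1 Q2 Q3 : ℕ → Pt → Prop} {v' : ℤ → ℤ → ι → ℝ}
    (h : FDs q n ez F1 F2 F3 K x s r U g u v A b C Q1 Q2 Q3 v') (hK : K ≤ n) (hez : 0 < ez)
    (hl : 0 ≤ H677.Sk.lam1 q s r) (t : ℤ) (sh : Pt) :
    ∀ k < K, ∀ a ∈ iv (K - k) t, ∀ m p : ℤ,
      ∑ x0 ∈ iv k a, H433.rt L (H609.RPW.ec L e
        (shC K (cx K x) sh fun k z x => (√ez)⁻¹ • C x0 k z x) (L + (k + 1))) (k + 1) m p ≤
        4 * H677.Sk.lam1 q s r * 2 ^ k := by
  intro k hk a ha m p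
  have h1 := rowC h hK hez hl t sh k hk a ha m p
  have h2 := mul_le_mul_of_nonneg_left h1 (by positivity : (0 : ℝ) ≤ ((2 : ℝ) ^ (k + 1))⁻¹)
  rw [mul_sum] at h2
  refine le_trans (le_of_eq ?_) (h2.trans (le_of_eq ?_))
  · exact sum_congr rfl fun x0 _ => rt_ec_nsq he hm _ (k + 1) (k + 1) m p
  · have h4 : (4 : ℝ) ^ k = 2 ^ k * 2 ^ k := by rw [← mul_pow]; norm_num
    rw [h4, pow_succ]
    field_simp
    ring

end

end Vale.Agent.P141.H619
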