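import Vale.Agent.P141.H958.EFin

/-!
# P141, line A: the stage sum for a moving third slot

Steps and tail are the landed ones (arbitrary slots).  The pair sums which contain the third slot
carry a factor `(1 + e) ^ 2`, and those of the second and the third slot a further factor `ρ`.
`starL`: below a level, geometric.  `e442L`: from the caps down to a level.  `stage`: both, with the
factor `ρ` entering the main term only through its square root.
-/

namespace Vale.Agent.P141.H619.Stage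

open Finset Matrix Vale.Agent.P075 Vale.Agent.P141.PL Vale.Agent.P141.PL.H588
open Vale.Agent.P141.PL.H804
open Vale.Agent.P141.H958

noncomputable section

/-- comparison of two terms of `st3` -/
theorem cmp_le {cX cZ D D' E : ℝ} (hX : 0 < cX) (hZ : 0 < cZ) (hD : 0 ≤ D) (hD' : 0 ≤ D')
    (hE : 0 ≤ E) {a e : ℕ} (h : lv cZ e * D' ≤ lv cX a * D) :
    cX * (2 ^ a)⁻¹ * √(E * D') ≤ 2 * (cZ * (2 ^ e)⁻¹ * √(D * E)) := by
  have x0 : 0 < cX * ((2 : ℝ) ^ a)⁻¹ := by positivity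
  have z0 : 0 < cZ * ((2 : ℝ) ^ e)⁻¹ := by positivity
  set x : ℝ := cX * ((2 : ℝ) ^ a)⁻¹ with hx
  set z : ℝ := cZ * ((2 : ℝ) ^ e)⁻¹ with hz
  have h4 : ∀ j : ℕ, (4 : ℝ) ^ j = (2 ^ j) ^ 2 := fun j => by
    rw [← pow_mul, mul_comm j 2, pow_mul]; norm_num
  have e1 : lv cX a ≤ (x ^ 2)⁻¹ := by
    rw [lv_eq, hx, mul_pow, mul_inv, inv_pow, inv_inv, ← h4, mul_comm ((cX ^ 2)⁻¹)]
    exact mul_le_mul_of_nonneg_right (pow_le_pow_right₀ (by norm_num) (by omega)) (by positivity)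
  have e2 : (4 * z ^ 2)⁻¹ ≤ lv cZ e := by
    rw [lv_eq, hz, mul_pow, mul_inv, mul_inv, inv_pow, inv_inv, ← h4,
      show (4 : ℝ)⁻¹ * ((cZ ^ 2)⁻¹ * 4 ^ e) = (4⁻¹ * 4 ^ e) * (cZ ^ 2)⁻¹ by ring]
    refine mul_le_mul_of_nonneg_right ?_ (by positivity)
    have h1 : (4 : ℝ) ^ e ≤ 4 ^ (e - 1 + 1) := pow_le_pow_right₀ (by norm_num) (by omega)
    rw [pow_succ] at h1
    linarith
  have e3 : (4 * z ^ 2)⁻¹ * D' ≤ (x ^ 2)⁻¹ * D :=
    (mul_le_mul_of_nonneg_right e2 hD').trans (h.trans (mul_le_mul_of_nonneg_right e1 hD))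
  have e4 : x ^ 2 * D' ≤ 4 * z ^ 2 * D := by
    have h5 := mul_le_mul_of_nonneg_left e3 (by positivity : 0 ≤ x ^ 2 * (4 * z ^ 2))
    have h6 : x ^ 2 * (4 * z ^ 2) * ((4 * z ^ 2)⁻¹ * D') = x ^ 2 * D' := by field_simp
    have h7 : x ^ 2 * (4 * z ^ 2) * ((x ^ 2)⁻¹ * D) = 4 * z ^ 2 * D := by field_simp
    linarith
  have h8 : x * √(E * D') = √(x ^ 2 * (E * D')) := by
    rw [Real.sqrt_mul (sq_nonneg x), Real.sqrt_sq x0.le]
  have h9 : 2 * (z * √(D * E)) = √((2 * z) ^ 2 * (D * E)) := by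
    rw [Real.sqrt_mul (sq_nonneg _), Real.sqrt_sq (by positivity)]
    ring
  rw [h8, h9]
  refine Real.sqrt_le_sqrt ?_
  have h10 := mul_le_mul_of_nonneg_right e4 hE
  calc x ^ 2 * (E * D') = x ^ 2 * D' * E := by ring
    _ ≤ 4 * z ^ 2 * D * E := h10
    _ = (2 * z) ^ 2 * (D * E) := by ring

section

variable {N : ℕ} {R : Pt} {c : ℕ → ℤ} {A B C : ℕ → ℤ → ℤ → ℝ} {cA cB cC : ℝ}
  {s : ℕ → Finset Pt}

/-- **Star3 with a level factor** `(1 + e) ^ 2` in the pair sums of the third slot. -/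
theorem starL (hs : ∀ k ∈ Icc 1 N, s k ⊆ bx3 N R k (c k))
    (hA : 0 < cA) (hB : 0 < cB) (hC : 0 < cC)
    (capA : ∀ k ∈ Icc 1 N, ∀ m ∈ s k, Cap k m.1 m.2.1 cA (A k))
    (capB : ∀ k ∈ Icc 1 N, ∀ m ∈ s k, Cap k m.2.1 m.2.2 cB (B k))
    (capC : ∀ k ∈ Icc 1 N, ∀ m ∈ s k, Cap k m.1 m.2.2 cC (C k)) {κ DA DB DC : ℝ} (hκ : 0 ≤ κ)
    (dA : 0 ≤ DA) (dB : 0 ≤ DB) (dC : 0 ≤ DC)
    (hp : ∀ a b, prs N R.1 R.2.1 R.2.2 c (wp (lv cA a) A) (wp (lv cB b) (sp B)) ≤
      κ * (lv cA a * DA + lv cB b * DB))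
    (hq : ∀ b e : ℕ, prs N R.2.1 R.2.2 R.1 c (wp (lv cB b) B) (wp (lv cC e) C) ≤
      κ * (1 + (e : ℝ)) ^ 2 * (lv cB b * DB + lv cC e * DC))
    (hr : ∀ a e : ℕ, prs N R.2.1 R.1 R.2.2 c (wp (lv cA a) (sp A)) (wp (lv cC e) (sp C)) ≤
      κ * (1 + (e : ℝ)) ^ 2 * (lv cC e * DC + lv cA a * DA)) (a b e : ℕ) :
    U N s cA cB cC A B C a b e ≤
      100 * κ * (20 + (e : ℝ)) ^ 2 *
        st3 (cA * (2 ^ a)⁻¹) (cB * (2 ^ b)⁻¹) (cC * (2 ^ e)⁻¹) DA DB DC := by
  obtain ⟨K, hK0, hK⟩ := U_tail (A := A) (B := B) (C := C) hA hB hC capA capB capC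
  have main : ∀ n a b e : ℕ, U N s cA cB cC A B C a b e ≤
      100 * κ * (20 + (e : ℝ)) ^ 2 *
        st3 (cA * (2 ^ a)⁻¹) (cB * (2 ^ b)⁻¹) (cC * (2 ^ e)⁻¹) DA DB DC
        + K * (2 ^ ((a + b + e + n) / 3))⁻¹ := by
    intro n
    induction n with
    | zero =>
      intro a b e
      have h0 : 0 ≤ 100 * κ * (20 + (e : ℝ)) ^ 2 *
          st3 (cA * (2 ^ a)⁻¹) (cB * (2 ^ b)⁻¹) (cC * (2 ^ e)⁻¹) DA DB DC :=
        mul_nonneg (by positivity) (st3_nonneg (by positivity) (by positivity) (by positivity) _ _ _)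
      have hm : ∀ j : ℕ, (a + b + e + 0) / 3 ≤ j →
          K * ((2 : ℝ) ^ j)⁻¹ ≤ K * (2 ^ ((a + b + e + 0) / 3))⁻¹ := fun j hj =>
        mul_le_mul_of_nonneg_left (inv_anti₀ (by positivity)
          (pow_le_pow_right₀ (by norm_num) hj)) hK0
      have hcase : (a + b + e + 0) / 3 ≤ a ∨ (a + b + e + 0) / 3 ≤ b ∨
          (a + b + e + 0) / 3 ≤ e := by omega
      have hKabe := hK a b e
      rcases hcase with h | h | h
      · linarith [hm a h, hKabe.1]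
      · linarith [hm b h, hKabe.2.1]
      · linarith [hm e h, hKabe.2.2]
    | succ n ih =>
      intro a b e
      have he0 : (0 : ℝ) ≤ (e : ℝ) := Nat.cast_nonneg e
      have hL1 : (1 : ℝ) ≤ (1 + (e : ℝ)) ^ 2 := by nlinarith
      have la := lv_pos hA a
      have lb := lv_pos hB b
      have hp1 : prs N R.1 R.2.1 R.2.2 c (wp (lv cA a) A) (wp (lv cB b) (sp B)) ≤
          κ * (1 + (e : ℝ)) ^ 2 * (lv cA a * DA + lv cB b * DB) := by
        refine (hp a b).trans ?_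
        have h1 : 0 ≤ κ * (lv cA a * DA + lv cB b * DB) := by positivity
        calc κ * (lv cA a * DA + lv cB b * DB)
            = 1 * (κ * (lv cA a * DA + lv cB b * DB)) := (one_mul _).symm
          _ ≤ (1 + (e : ℝ)) ^ 2 * (κ * (lv cA a * DA + lv cB b * DB)) :=
              mul_le_mul_of_nonneg_right hL1 h1
          _ = _ := by ring
      have st := step hs hA hB hC capA capB capC a b e hp1 (hq b e) (hr a e)
      have hκe : 0 ≤ κ * (1 + (e : ℝ)) ^ 2 := by positivity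
      have hh : ∀ j : ℕ, ((2 : ℝ) ^ (j + 1))⁻¹ = (2 ^ j)⁻¹ / 2 := fun j => by
        rw [pow_succ, mul_inv]; ring
      have hX0 : 0 ≤ cA * ((2 : ℝ) ^ a)⁻¹ * √(DB * DC) := by positivity
      have hY0 : 0 ≤ cB * ((2 : ℝ) ^ b)⁻¹ * √(DC * DA) := by positivity
      have hZ0 : 0 ≤ cC * ((2 : ℝ) ^ e)⁻¹ * √(DA * DB) := by positivity
      have caseA : lv cA a * DA ≤ lv cB b * DB → lv cA a * DA ≤ lv cC e * DC →
          U N s cA cB cC A B C a b e ≤
          100 * κ * (20 + (e : ℝ)) ^ 2 *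
            st3 (cA * (2 ^ a)⁻¹) (cB * (2 ^ b)⁻¹) (cC * (2 ^ e)⁻¹) DA DB DC
            + K * (2 ^ ((a + b + e + (n + 1)) / 3))⁻¹ := by
        intro h1 h2
        have h3 := st_cost hκe hA hB hC dA dB dC h1 h2
        have h4 := ih (a + 1) b e
        rw [show a + 1 + b + e + n = a + b + e + (n + 1) by ring] at h4
        refine st.1.trans ((add_le_add h4 (mul_le_mul_of_nonneg_left h3
          (by norm_num : (0 : ℝ) ≤ 6))).trans ?_)
        unfold st3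
        rw [hh]
        set X : ℝ := cA * ((2 : ℝ) ^ a)⁻¹ * √(DB * DC) with hX
        have e1 : cA * (((2 : ℝ) ^ a)⁻¹ / 2) * √(DB * DC) = X / 2 := by rw [hX]; ring
        rw [e1]
        have h5 : 24 * (κ * (1 + (e : ℝ)) ^ 2 * X) ≤ 50 * (κ * (20 + (e : ℝ)) ^ 2 * X) := by
          have h6 : 24 * (1 + (e : ℝ)) ^ 2 ≤ 50 * (20 + (e : ℝ)) ^ 2 := by nlinarith
          have h7 := mul_le_mul_of_nonneg_right h6 (mul_nonneg hκ hX0)
          linarith
        linarith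
      have caseB : lv cB b * DB ≤ lv cC e * DC → lv cB b * DB ≤ lv cA a * DA →
          U N s cA cB cC A B C a b e ≤
          100 * κ * (20 + (e : ℝ)) ^ 2 *
            st3 (cA * (2 ^ a)⁻¹) (cB * (2 ^ b)⁻¹) (cC * (2 ^ e)⁻¹) DA DB DC
            + K * (2 ^ ((a + b + e + (n + 1)) / 3))⁻¹ := by
        intro h1 h2
        have h3 := st_cost hκe hB hC hA dB dC dA h1 h2
        rw [← (wl_perm cA cB cC a b e).1] at h3
        have h4 := ih a (b + 1) e
        rw [show a + (b + 1) + e + n = a + b + e + (n + 1) by ring] at h4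
        refine st.2.1.trans ((add_le_add h4 (mul_le_mul_of_nonneg_left h3
          (by norm_num : (0 : ℝ) ≤ 6))).trans ?_)
        unfold st3
        rw [hh]
        set Y : ℝ := cB * ((2 : ℝ) ^ b)⁻¹ * √(DC * DA) with hY
        have e1 : cB * (((2 : ℝ) ^ b)⁻¹ / 2) * √(DC * DA) = Y / 2 := by rw [hY]; ring
        rw [e1]
        have h5 : 24 * (κ * (1 + (e : ℝ)) ^ 2 * Y) ≤ 50 * (κ * (20 + (e : ℝ)) ^ 2 * Y) := by
          have h6 : 24 * (1 + (e : ℝ)) ^ 2 ≤ 50 * (20 + (e : ℝ)) ^ 2 := by nlinarith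
          have h7 := mul_le_mul_of_nonneg_right h6 (mul_nonneg hκ hY0)
          linarith
        linarith
      have caseC : lv cC e * DC ≤ lv cA a * DA → lv cC e * DC ≤ lv cB b * DB →
          U N s cA cB cC A B C a b e ≤
          100 * κ * (20 + (e : ℝ)) ^ 2 *
            st3 (cA * (2 ^ a)⁻¹) (cB * (2 ^ b)⁻¹) (cC * (2 ^ e)⁻¹) DA DB DC
            + K * (2 ^ ((a + b + e + (n + 1)) / 3))⁻¹ := by
        intro h1 h2
        have h3 := st_cost hκe hC hA hB dC dA dB h1 h2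
        rw [← (wl_perm cA cB cC a b e).2] at h3
        have h4 := ih a b (e + 1)
        rw [show a + b + (e + 1) + n = a + b + e + (n + 1) by ring] at h4
        refine st.2.2.trans ((add_le_add h4 (mul_le_mul_of_nonneg_left h3
          (by norm_num : (0 : ℝ) ≤ 6))).trans ?_)
        have c1 := cmp_le (E := DB) hA hC dA dC dB h1
        have c2 := cmp_le (E := DA) hB hC dB dC dA h2
        rw [mul_comm DA DC, mul_comm DB DA] at c2
        unfold st3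
        rw [hh]
        set X : ℝ := cA * ((2 : ℝ) ^ a)⁻¹ * √(DB * DC) with hX
        set Y : ℝ := cB * ((2 : ℝ) ^ b)⁻¹ * √(DC * DA) with hY
        set Z : ℝ := cC * ((2 : ℝ) ^ e)⁻¹ * √(DA * DB) with hZ
        have e1 : cC * (((2 : ℝ) ^ e)⁻¹ / 2) * √(DA * DB) = Z / 2 := by rw [hZ]; ring
        rw [e1]
        push_cast
        set w : ℝ := (e : ℝ) with hw
        have hXY : X + Y ≤ 4 * Z := by linarith
        have k1 : κ * (100 * (41 + 2 * w)) * (X + Y) ≤ κ * (100 * (41 + 2 * w)) * (4 * Z) :=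
          mul_le_mul_of_nonneg_left hXY (by positivity)
        have k2 : 0 ≤ κ * Z * (17926 + 1852 * w + 26 * w ^ 2 - 400 * (41 + 2 * w)) := by
          refine mul_nonneg (mul_nonneg hκ hZ0) ?_
          nlinarith
        have k3 : 100 * κ * (20 + w) ^ 2 * (X + Y + Z) -
            (100 * κ * (20 + (w + 1)) ^ 2 * (X + Y + Z / 2) + 6 * (4 * (κ * (1 + w) ^ 2) * Z)) =
            κ * Z * (17926 + 1852 * w + 26 * w ^ 2) - κ * (100 * (41 + 2 * w)) * (X + Y) := by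
          ring
        linarith
      rcases le_total (lv cA a * DA) (lv cB b * DB) with hab | hab
      · rcases le_total (lv cA a * DA) (lv cC e * DC) with hac | hac
        · exact caseA hab hac
        · exact caseC hac (hac.trans hab)
      · rcases le_total (lv cB b * DB) (lv cC e * DC) with hbc | hbc
        · exact caseB hbc hab
        · exact caseC (hbc.trans hab) hbc
  refine lim_le (K := K) fun L => ?_
  refine (main (3 * L) a b e).trans ?_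
  have h1 : L ≤ (a + b + e + 3 * L) / 3 := by omega
  have h2 : K * ((2 : ℝ) ^ ((a + b + e + 3 * L) / 3))⁻¹ ≤ K * (2 ^ L)⁻¹ :=
    mul_le_mul_of_nonneg_left (inv_anti₀ (by positivity)
      (pow_le_pow_right₀ (by norm_num) h1)) hK0
  linarith

/-- **The path engine for the exponents 4, 4, 2 with a level factor.** -/
theorem e442L (hs : ∀ k ∈ Icc 1 N, s k ⊆ bx3 N R k (c k))
    (hA : 0 < cA) (hB : 0 < cB) (hC : 0 < cC)
    (capA : ∀ k ∈ Icc 1 N, ∀ m ∈ s k, Cap k m.1 m.2.1 cA (A k))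
    (capB : ∀ k ∈ Icc 1 N, ∀ m ∈ s k, Cap k m.2.1 m.2.2 cB (B k))
    (capC : ∀ k ∈ Icc 1 N, ∀ m ∈ s k, Cap k m.1 m.2.2 cC (C k)) {κ nA nB nC : ℝ} (hκ : 0 ≤ κ)
    (dA : 0 ≤ nA) (dB : 0 ≤ nB) (dC : 0 ≤ nC)
    (hp : ∀ a b, prs N R.1 R.2.1 R.2.2 c (wp (lv cA a) A) (wp (lv cB b) (sp B)) ≤
      κ * √(16 ^ (a - 1) * nA * (16 ^ (b - 1) * nB)))
    (hq : ∀ b e : ℕ, prs N R.2.1 R.2.2 R.1 c (wp (lv cB b) B) (wp (lv cC e) C) ≤
      κ * (1 + (e : ℝ)) ^ 2 * max (4 ^ (e - 1) * nC) √(16 ^ (b - 1) * nB * (4 ^ (e - 1) * nC)))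
    (hr : ∀ a e : ℕ, prs N R.2.1 R.1 R.2.2 c (wp (lv cA a) (sp A)) (wp (lv cC e) (sp C)) ≤
      κ * (1 + (e : ℝ)) ^ 2 * max (4 ^ (e - 1) * nC) √(16 ^ (a - 1) * nA * (4 ^ (e - 1) * nC)))
    {Θ Z : ℝ} {LA LB LC : ℕ}
    (hZ : ∀ a b e, e ≤ LC → Θ ≤ 16 ^ (a - 1) * nA → Θ ≤ 16 ^ (b - 1) * nB →
      Θ ≤ 4 ^ (e - 1) * nC → U N s cA cB cC A B C a b e ≤ Z)
    (lA : Θ ≤ 16 ^ (LA - 1) * nA) (lB : Θ ≤ 16 ^ (LB - 1) * nB) (lC : Θ ≤ 4 ^ (LC - 1) * nC) :
    ∑ k ∈ Icc 1 N, (2 ^ k : ℝ)⁻¹ * ∑ m ∈ s k, |tri k m (A k) (B k) (C k)| ≤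
      6 * (κ * (1 + (LC : ℝ)) ^ 2 * w442 cA cB cC nA nB nC) * (LA + LB + LC : ℕ) + Z := by
  rw [U_zero N s cA cB cC A B C]
  set κ' : ℝ := κ * (1 + (LC : ℝ)) ^ 2 with hκ'
  have hκ0 : 0 ≤ κ' := by positivity
  have hLC : (0 : ℝ) ≤ (LC : ℝ) := Nat.cast_nonneg LC
  have hκκ : κ ≤ κ' := by
    rw [hκ']
    have h1 : (1 : ℝ) ≤ (1 + (LC : ℝ)) ^ 2 := by nlinarith
    nlinarith
  set w : ℝ := 6 * (κ' * w442 cA cB cC nA nB nC) with hw
  have hw0 : 0 ≤ w := by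
    rw [hw]
    unfold w442
    positivity
  have mono16 : ∀ {a b : ℕ} {x : ℝ}, 0 ≤ x → a ≤ b → (16 : ℝ) ^ (a - 1) * x ≤ 16 ^ (b - 1) * x :=
    fun hx h => mul_le_mul_of_nonneg_right (pow_le_pow_right₀ (by norm_num) (by omega)) hx
  have mono4 : ∀ {a b : ℕ} {x : ℝ}, 0 ≤ x → a ≤ b → (4 : ℝ) ^ (a - 1) * x ≤ 4 ^ (b - 1) * x :=
    fun hx h => mul_le_mul_of_nonneg_right (pow_le_pow_right₀ (by norm_num) (by omega)) hx
  have main : ∀ n a b e : ℕ, e ≤ LC → (LA - a) + (LB - b) + (LC - e) ≤ n →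
      U N s cA cB cC A B C a b e ≤ w * n + Z := by
    intro n
    induction n with
    | zero =>
      intro a b e hle h
      have := hZ a b e hle (lA.trans (mono16 dA (by omega))) (lB.trans (mono16 dB (by omega)))
        (lC.trans (mono4 dC (by omega)))
      simpa using this
    | succ n ih =>
      intro a b e hle h
      have hpt := hp a b
      have hqt := hq b e
      have hrt := hr a e
      set NA : ℝ := 16 ^ (a - 1) * nA with hNA
      set NB : ℝ := 16 ^ (b - 1) * nB with hNB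
      set NC : ℝ := 4 ^ (e - 1) * nC with hNC
      have nA0 : 0 ≤ NA := by positivity
      have nB0 : 0 ≤ NB := by positivity
      have nC0 : 0 ≤ NC := by positivity
      by_cases hall : Θ ≤ NA ∧ Θ ≤ NB ∧ Θ ≤ NC
      · have := hZ a b e hle hall.1 hall.2.1 hall.2.2
        have h0 : 0 ≤ w * ((n + 1 : ℕ) : ℝ) := by positivity
        linarith
      set p := prs N R.1 R.2.1 R.2.2 c (wp (lv cA a) A) (wp (lv cB b) (sp B)) with hpd
      set q := prs N R.2.1 R.2.2 R.1 c (wp (lv cB b) B) (wp (lv cC e) C) with hqd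
      set r := prs N R.2.1 R.1 R.2.2 c (wp (lv cA a) (sp A)) (wp (lv cC e) (sp C)) with hrd
      have p0 : 0 ≤ p := prs_nonneg ..
      have q0 : 0 ≤ q := prs_nonneg ..
      have r0 : 0 ≤ r := prs_nonneg ..
      have he0 : (0 : ℝ) ≤ (e : ℝ) := Nat.cast_nonneg e
      have hee : (e : ℝ) ≤ (LC : ℝ) := by exact_mod_cast hle
      have hκe : κ * (1 + (e : ℝ)) ^ 2 ≤ κ' := by
        rw [hκ']
        refine mul_le_mul_of_nonneg_left ?_ hκ
        exact pow_le_pow_left₀ (by linarith) (by linarith) 2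
      have hpt' : p ≤ κ' * √(NA * NB) :=
        hpt.trans (mul_le_mul_of_nonneg_right hκκ (Real.sqrt_nonneg _))
      have hqt' : q ≤ κ' * max NC √(NB * NC) :=
        hqt.trans (mul_le_mul_of_nonneg_right hκe (le_max_of_le_left nC0))
      have hrt' : r ≤ κ' * max NC √(NA * NC) :=
        hrt.trans (mul_le_mul_of_nonneg_right hκe (le_max_of_le_left nC0))
      have st := step hs hA hB hC capA capB capC a b e (p := p) (q := q) (r := r)
        hpd.ge hqd.ge hrd.ge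
      have hwl0 : 0 ≤ wl cA cB cC a b e := by unfold wl; positivity
      have key : ∀ x y : ℝ, 0 ≤ x → 0 ≤ y → x * y ≤ κ' ^ 2 * (√(NA * NB) * NC) →
          6 * (wl cA cB cC a b e * √(x * y)) ≤ w := by
        intro x y _ _ hxy
        have h1 : √(x * y) ≤ κ' * √(√(NA * NB) * NC) := by
          refine (Real.sqrt_le_sqrt hxy).trans (le_of_eq ?_)
          rw [Real.sqrt_mul (sq_nonneg κ'), Real.sqrt_sq hκ0]
        have h2 := mul_le_mul_of_nonneg_left h1 hwl0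
        have h3 := w442_eq cA cB cC nA nB nC a b e
        rw [hw, ← h3]
        calc 6 * (wl cA cB cC a b e * √(x * y)) ≤
            6 * (wl cA cB cC a b e * (κ' * √(√(NA * NB) * NC))) := by linarith
          _ = _ := by ring
      have fin : ∀ {u v : ℝ}, u ≤ v + w → v ≤ w * n + Z → u ≤ w * ((n + 1 : ℕ) : ℝ) + Z := by
        intro u v h1 h2
        push_cast
        linarith
      have hmin : (NA ≤ NB ∧ NA ≤ NC) ∨ (NB ≤ NA ∧ NB ≤ NC) ∨ (NC ≤ NA ∧ NC ≤ NB) := by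
        rcases le_total NA NB with h1 | h1
        · rcases le_total NA NC with h2 | h2
          · exact Or.inl ⟨h1, h2⟩
          · exact Or.inr (Or.inr ⟨h2, h2.trans h1⟩)
        · rcases le_total NB NC with h2 | h2
          · exact Or.inr (Or.inl ⟨h1, h2⟩)
          · exact Or.inr (Or.inr ⟨h2.trans h1, h2⟩)
      rcases hmin with ⟨h1, h2⟩ | ⟨h1, h2⟩ | ⟨h1, h2⟩
      · have ha : a < LA := by
          by_contra hle
          have h3 : Θ ≤ NA := lA.trans (mono16 dA (by omega))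
          exact hall ⟨h3, h3.trans h1, h3.trans h2⟩
        have hr2 : r ≤ κ' * NC := by
          rw [max_eq_left (geo_le_of_le nC0 h2)] at hrt'
          exact hrt'
        have hc := key r p r0 p0 (by
          calc r * p ≤ κ' * NC * (κ' * √(NA * NB)) :=
                mul_le_mul hr2 hpt' p0 (by positivity)
            _ = _ := by ring)
        exact fin (st.1.trans (add_le_add le_rfl hc)) (ih (a + 1) b e hle (by omega))
      · have hb : b < LB := by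
          by_contra hle
          have h3 : Θ ≤ NB := lB.trans (mono16 dB (by omega))
          exact hall ⟨h3.trans h1, h3, h3.trans h2⟩
        have hq2 : q ≤ κ' * NC := by
          rw [max_eq_left (geo_le_of_le nC0 h2)] at hqt'
          exact hqt'
        have hc := key p q p0 q0 (by
          calc p * q ≤ κ' * √(NA * NB) * (κ' * NC) :=
                mul_le_mul hpt' hq2 q0 (by positivity)
            _ = _ := by ring)
        exact fin (st.2.1.trans (add_le_add le_rfl hc)) (ih a (b + 1) e hle (by omega))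
      · have he : e < LC := by
          by_contra hle
          have h3 : Θ ≤ NC := lC.trans (mono4 dC (by omega))
          exact hall ⟨h3.trans h1, h3.trans h2, h3⟩
        have hr2 : r ≤ κ' * √(NA * NC) := by
          rw [max_eq_right (le_geo_of_le nC0 h1)] at hrt'
          exact hrt'
        have hq2 : q ≤ κ' * √(NB * NC) := by
          rw [max_eq_right (le_geo_of_le nC0 h2)] at hqt'
          exact hqt'
        have hc := key q r q0 r0 (by
          calc q * r ≤ κ' * √(NB * NC) * (κ' * √(NA * NC)) :=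
                mul_le_mul hq2 hr2 r0 (by positivity)
            _ = κ' ^ 2 * (√(NA * NB) * NC) := by
              have e1 : √(NB * NC) * √(NA * NC) = √(NA * NB) * NC := by
                rw [← Real.sqrt_mul (by positivity), show NB * NC * (NA * NC) =
                  (NA * NB) * NC ^ 2 by ring, Real.sqrt_mul (by positivity), Real.sqrt_sq nC0]
              calc κ' * √(NB * NC) * (κ' * √(NA * NC)) = κ' ^ 2 * (√(NB * NC) * √(NA * NC)) := by
                    ring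
                _ = _ := by rw [e1])
        exact fin (st.2.2.trans (add_le_add le_rfl hc)) (ih a b (e + 1) (by omega) (by omega))
  exact main (LA + LB + LC) 0 0 0 (Nat.zero_le _) (by omega)

/-- level to size, fourth powers -/
theorem q4_le {cX GX Θ : ℝ} (hΘ : 0 < Θ) (hG : 0 ≤ GX) (a : ℕ) (hX : 0 < cX)
    (h : Θ ≤ 16 ^ (a - 1) * (GX / cX ^ 4)) : cX * (2 ^ a)⁻¹ ≤ √√(GX / Θ) := by
  refine Real.le_sqrt_of_sq_le (Real.le_sqrt_of_sq_le ?_)
  rw [le_div_iff₀ hΘ]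
  have h2 : ((2 : ℝ) ^ (a - 1)) ≤ 2 ^ a := pow_le_pow_right₀ (by norm_num) (by omega)
  have h16 : (16 : ℝ) ^ (a - 1) = (2 ^ (a - 1)) ^ 4 := by
    rw [← pow_mul, mul_comm, pow_mul]; norm_num
  have h3 : (16 : ℝ) ^ (a - 1) ≤ (2 ^ a) ^ 4 := by
    rw [h16]
    exact pow_le_pow_left₀ (by positivity) h2 4
  have h5 : (cX * (2 ^ a)⁻¹) ^ 2 * (cX * (2 ^ a)⁻¹) ^ 2 * Θ * (2 ^ a) ^ 4 =
      cX ^ 4 * Θ := by
    field_simp
  have h6 : cX ^ 4 * Θ ≤ 16 ^ (a - 1) * GX := by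
    have := mul_le_mul_of_nonneg_left h (by positivity : 0 ≤ cX ^ 4)
    calc cX ^ 4 * Θ ≤ cX ^ 4 * (16 ^ (a - 1) * (GX / cX ^ 4)) := this
      _ = 16 ^ (a - 1) * GX := by field_simp
  have h7 : (16 : ℝ) ^ (a - 1) * GX ≤ (2 ^ a) ^ 4 * GX :=
    mul_le_mul_of_nonneg_right h3 hG
  have h8 : 0 < ((2 : ℝ) ^ a) ^ 4 := by positivity
  have h9 : ((cX * (2 ^ a)⁻¹) ^ 2) ^ 2 * Θ * (2 ^ a) ^ 4 ≤ GX * (2 ^ a) ^ 4 := by
    rw [pow_two ((cX * (2 ^ a)⁻¹) ^ 2), h5]
    linarith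
  exact le_of_mul_le_mul_right h9 h8

/-- level to size, squares -/
theorem q2_le {cX GX Θ : ℝ} (hΘ : 0 < Θ) (hG : 0 ≤ GX) (a : ℕ) (hX : 0 < cX)
    (h : Θ ≤ 4 ^ (a - 1) * (GX / cX ^ 2)) : cX * (2 ^ a)⁻¹ ≤ √(GX / Θ) := by
  refine Real.le_sqrt_of_sq_le ?_
  rw [le_div_iff₀ hΘ]
  have h2 : ((2 : ℝ) ^ (a - 1)) ≤ 2 ^ a := pow_le_pow_right₀ (by norm_num) (by omega)
  have h16 : (4 : ℝ) ^ (a - 1) = (2 ^ (a - 1)) ^ 2 := by
    rw [← pow_mul, mul_comm, pow_mul]; norm_num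
  have h3 : (4 : ℝ) ^ (a - 1) ≤ (2 ^ a) ^ 2 := by
    rw [h16]
    exact pow_le_pow_left₀ (by positivity) h2 2
  have h5 : (cX * (2 ^ a)⁻¹) ^ 2 * Θ * (2 ^ a) ^ 2 = cX ^ 2 * Θ := by
    field_simp
  have h6 : cX ^ 2 * Θ ≤ 4 ^ (a - 1) * GX := by
    have := mul_le_mul_of_nonneg_left h (by positivity : 0 ≤ cX ^ 2)
    calc cX ^ 2 * Θ ≤ cX ^ 2 * (4 ^ (a - 1) * (GX / cX ^ 2)) := this
      _ = 4 ^ (a - 1) * GX := by field_simp
  have h7 : (4 : ℝ) ^ (a - 1) * GX ≤ (2 ^ a) ^ 2 * GX :=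
    mul_le_mul_of_nonneg_right h3 hG
  have h8 : 0 < ((2 : ℝ) ^ a) ^ 2 := by positivity
  have h9 : (cX * (2 ^ a)⁻¹) ^ 2 * Θ * (2 ^ a) ^ 2 ≤ GX * (2 ^ a) ^ 2 := by
    rw [h5]
    linarith
  exact le_of_mul_le_mul_right h9 h8

/-- **The stage sum for a moving third slot** (one plane).  The third slot has the energies `EC`,
`DC`, the level factor `(1 + e) ^ 2` in its pair sums and the factor `ρ` in the pair sum with the
second slot; in the main term only `√ρ` appears. -/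
theorem stage (hs : ∀ k ∈ Icc 1 N, s k ⊆ bx3 N R k (c k))
    (hA : 0 < cA) (hB : 0 < cB) (hC : 0 < cC)
    (capA : ∀ k ∈ Icc 1 N, ∀ m ∈ s k, Cap k m.1 m.2.1 cA (A k))
    (capB : ∀ k ∈ Icc 1 N, ∀ m ∈ s k, Cap k m.2.1 m.2.2 cB (B k))
    (capC : ∀ k ∈ Icc 1 N, ∀ m ∈ s k, Cap k m.1 m.2.2 cC (C k))
    {κ ρ GA GB EC DA DB DC Θ : ℝ} (hκ : 0 ≤ κ) (hρ : 1 ≤ ρ) (pA : 0 ≤ GA) (pB : 0 ≤ GB)
    (pC : 0 ≤ EC) (dA : 0 ≤ DA) (dB : 0 ≤ DB) (dC : 0 ≤ DC) (hΘ : 0 < Θ)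
    (hp : ∀ a b, prs N R.1 R.2.1 R.2.2 c (wp (lv cA a) A) (wp (lv cB b) (sp B)) ≤
      κ * √(16 ^ (a - 1) * (GA / cA ^ 4) * (16 ^ (b - 1) * (GB / cB ^ 4))))
    (hp' : ∀ a b, prs N R.1 R.2.1 R.2.2 c (wp (lv cA a) A) (wp (lv cB b) (sp B)) ≤
      κ * (lv cA a * DA + lv cB b * DB))
    (hq : ∀ b e : ℕ, prs N R.2.1 R.2.2 R.1 c (wp (lv cB b) B) (wp (lv cC e) C) ≤
      κ * (1 + (e : ℝ)) ^ 2 * (ρ * max (4 ^ (e - 1) * (EC / cC ^ 2))
        √(16 ^ (b - 1) * (GB / cB ^ 4) * (4 ^ (e - 1) * (EC / cC ^ 2)))))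
    (hq' : ∀ b e : ℕ, prs N R.2.1 R.2.2 R.1 c (wp (lv cB b) B) (wp (lv cC e) C) ≤
      κ * (1 + (e : ℝ)) ^ 2 * (ρ * (lv cB b * DB + lv cC e * DC)))
    (hr : ∀ a e : ℕ, prs N R.2.1 R.1 R.2.2 c (wp (lv cA a) (sp A)) (wp (lv cC e) (sp C)) ≤
      κ * (1 + (e : ℝ)) ^ 2 * max (4 ^ (e - 1) * (EC / cC ^ 2))
        √(16 ^ (a - 1) * (GA / cA ^ 4) * (4 ^ (e - 1) * (EC / cC ^ 2))))
    (hr' : ∀ a e : ℕ, prs N R.2.1 R.1 R.2.2 c (wp (lv cA a) (sp A)) (wp (lv cC e) (sp C)) ≤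
      κ * (1 + (e : ℝ)) ^ 2 * (lv cC e * DC + lv cA a * DA)) {LA LB LC : ℕ}
    (tA : ρ * Θ * cA ^ 4 ≤ 16 ^ (LA - 1) * GA) (tB : Θ * cB ^ 4 ≤ 16 ^ (LB - 1) * (ρ * GB))
    (tC : Θ * cC ^ 2 ≤ 4 ^ (LC - 1) * (ρ * EC)) :
    ∑ k ∈ Icc 1 N, (2 ^ k : ℝ)⁻¹ * ∑ m ∈ s k, |tri k m (A k) (B k) (C k)| ≤
      6 * (κ * (1 + (LC : ℝ)) ^ 2 * (√ρ * √(√(GA * GB) * EC))) * (LA + LB + LC : ℕ) +
        100 * κ * (20 + (LC : ℝ)) ^ 2 *
          st3 √√(GA / (ρ * Θ)) √√(ρ * GB / Θ) √(ρ * EC / Θ) DA (ρ * DB) (ρ * DC) := by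
  have r0 : 0 < ρ := by linarith
  have mx : ∀ x y : ℝ, 0 ≤ x → max x √(y * x) ≤ max (ρ * x) √(y * x) := fun x y hx =>
    max_le_max (by nlinarith) le_rfl
  have h := e442L hs hA hB hC capA capB capC (κ := κ) (nA := GA / ρ / cA ^ 4)
    (nB := ρ * GB / cB ^ 4) (nC := ρ * EC / cC ^ 2) hκ (by positivity) (by positivity)
    (by positivity)
    (fun a b => by
      refine (hp a b).trans (le_of_eq ?_)
      congr 2
      field_simp)
    (fun b e => by
      refine (hq b e).trans (le_of_eq ?_)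
      rw [mul_max_of_nonneg _ _ r0.le]
      congr 2
      · ring
      · rw [show (16 : ℝ) ^ (b - 1) * (ρ * GB / cB ^ 4) * (4 ^ (e - 1) * (ρ * EC / cC ^ 2)) =
          ρ ^ 2 * (16 ^ (b - 1) * (GB / cB ^ 4) * (4 ^ (e - 1) * (EC / cC ^ 2))) by ring,
          Real.sqrt_mul (sq_nonneg ρ), Real.sqrt_sq r0.le])
    (fun a e => by
      refine (hr a e).trans ?_
      refine mul_le_mul_of_nonneg_left ?_ (by positivity)
      refine (mx _ _ (by positivity)).trans (le_of_eq ?_)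
      congr 1
      · ring
      · congr 1
        field_simp) (Θ := Θ)
    (Z := 100 * κ * (20 + (LC : ℝ)) ^ 2 *
          st3 √√(GA / (ρ * Θ)) √√(ρ * GB / Θ) √(ρ * EC / Θ) DA (ρ * DB) (ρ * DC))
    (LA := LA) (LB := LB) (LC := LC)
    (fun a b e hle ha hb he => by
      have la : ∀ a, 0 ≤ lv cA a := fun a => (lv_pos hA a).le
      have lb : ∀ b, 0 ≤ lv cB b := fun b => (lv_pos hB b).le
      have lc : ∀ e, 0 ≤ lv cC e := fun e => (lv_pos hC e).le
      have hst := starL hs hA hB hC capA capB capC (κ := κ) (DA := DA) (DB := ρ * DB)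
        (DC := ρ * DC) hκ dA (by positivity) (by positivity)
        (fun a b => (hp' a b).trans (mul_le_mul_of_nonneg_left (by
          have h1 : lv cB b * DB ≤ lv cB b * (ρ * DB) :=
            mul_le_mul_of_nonneg_left (by nlinarith) (lb b)
          linarith) hκ))
        (fun b e => (hq' b e).trans (le_of_eq (by ring)))
        (fun a e => (hr' a e).trans (mul_le_mul_of_nonneg_left (by
          have h1 : lv cC e * DC ≤ lv cC e * (ρ * DC) :=
            mul_le_mul_of_nonneg_left (by nlinarith) (lc e)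
          linarith) (by positivity))) a b e
      have he0 : (0 : ℝ) ≤ (e : ℝ) := Nat.cast_nonneg e
      have hee : (e : ℝ) ≤ (LC : ℝ) := by exact_mod_cast hle
      have r1 := mul_le_mul_of_nonneg_right (q4_le (GX := GA / ρ) hΘ (by positivity) a hA ha)
        (Real.sqrt_nonneg (ρ * DB * (ρ * DC)))
      have r2 := mul_le_mul_of_nonneg_right (q4_le (GX := ρ * GB) hΘ (by positivity) b hB hb)
        (Real.sqrt_nonneg (ρ * DC * DA))
      have r3 := mul_le_mul_of_nonneg_right (q2_le (GX := ρ * EC) hΘ (by positivity) e hC he)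
        (Real.sqrt_nonneg (DA * (ρ * DB)))
      rw [div_div] at r1
      refine hst.trans ?_
      have hk : 100 * κ * (20 + (e : ℝ)) ^ 2 ≤ 100 * κ * (20 + (LC : ℝ)) ^ 2 :=
        mul_le_mul_of_nonneg_left (pow_le_pow_left₀ (by linarith) (by linarith) 2) (by positivity)
      refine mul_le_mul hk ?_ (st3_nonneg (by positivity) (by positivity) (by positivity) _ _ _)
        (by positivity)
      unfold st3
      linarith)
    (by
      rw [mul_div_assoc', le_div_iff₀ (by positivity), mul_div_assoc', le_div_iff₀ r0]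
      linarith)
    (by
      rw [mul_div_assoc', le_div_iff₀ (by positivity)]
      exact tB)
    (by
      rw [mul_div_assoc', le_div_iff₀ (by positivity)]
      exact tC)
  have hw : w442 cA cB cC (GA / ρ / cA ^ 4) (ρ * GB / cB ^ 4) (ρ * EC / cC ^ 2) =
      √ρ * √(√(GA * GB) * EC) := by
    unfold w442
    have e1 : √(GA / ρ / cA ^ 4 * (ρ * GB / cB ^ 4)) = √(GA * GB) / (cA ^ 2 * cB ^ 2) := by
      rw [show GA / ρ / cA ^ 4 * (ρ * GB / cB ^ 4) = GA * GB / (cA ^ 2 * cB ^ 2) ^ 2 by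
        field_simp, Real.sqrt_div' _ (sq_nonneg _), Real.sqrt_sq (by positivity)]
    rw [e1, show √(GA * GB) / (cA ^ 2 * cB ^ 2) * (ρ * EC / cC ^ 2) =
      ρ * (√(GA * GB) * EC) / (cA * cB * cC) ^ 2 by field_simp, Real.sqrt_div' _ (sq_nonneg _),
      Real.sqrt_sq (by positivity), Real.sqrt_mul r0.le]
    field_simp
  rw [hw] at h
  exact h

end

end

end Vale.Agent.P141.H619.Stage
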